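import Vale.Agent.P278.MathlibUsed

open Topology Set Filter
open scoped ContDiff Manifold

namespace Vale.Agent.P278.StmtF

universe u

section
variable (E : Type*) [NormedAddCommGroup E] [NormedSpace ℂ E]
  (X : Type*) [TopologicalSpace X] [ChartedSpace E X]

/-- A family of complex subspaces of the holomorphic tangent spaces. -/
abbrev Dist : Type _ := ∀ x : X, Submodule ℂ (TangentSpace 𝓘(ℂ, E) x)

/-- A family of complex valued forms on the holomorphic tangent spaces. -/
abbrev Form : Type _ :=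
  ∀ x : X, TangentSpace 𝓘(ℂ, E) x → TangentSpace 𝓘(ℂ, E) x → ℂ

end

section
variable {E : Type*} [NormedAddCommGroup E] [NormedSpace ℂ E]
  {X : Type*} [TopologicalSpace X] [ChartedSpace E X]

/-- The form `h` on the constant vector fields `u`, `v` in the coordinates given by the
chart `φ`. -/
noncomputable def loc (h : Form E X) (φ : OpenPartialHomeomorph X E) (u v p : E) : ℂ :=
  h (φ.symm p) (mfderiv 𝓘(ℂ, E) 𝓘(ℂ, E) φ.symm p u) (mfderiv 𝓘(ℂ, E) 𝓘(ℂ, E) φ.symm p v)

/-- `h` is a Kähler metric: a smooth Hermitian metric whose imaginary part is a closed form. -/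
structure IsKahler (h : Form E X) : Prop where
  lin : ∀ x u, IsLinearMap ℂ (h x u)
  symm : ∀ x u v, star (h x u v) = h x v u
  pos : ∀ x u, u ≠ 0 → 0 < (h x u u).re
  smooth : ∀ φ ∈ IsManifold.maximalAtlas 𝓘(ℂ, E) ω X, ∀ u v, ContDiffOn ℝ ∞ (loc h φ u v) φ.target
  closed : ∀ φ ∈ IsManifold.maximalAtlas 𝓘(ℂ, E) ω X, ∀ p ∈ φ.target, ∀ u v w,
    (fderiv ℝ (loc h φ v w) p u + fderiv ℝ (loc h φ w u) p v + fderiv ℝ (loc h φ u v) p w).im = 0

end

section
variable {E : Type*} [NormedAddCommGroup E] [NormedSpace ℂ E]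
  {X : Type*} [TopologicalSpace X] [ChartedSpace E X] [IsManifold 𝓘(ℂ, E) 1 X]

/-- `V` is a holomorphic section of `F` over the set `U`. -/
def IsHolSec (F : Dist E X) (U : Set X) (V : ∀ x : X, TangentSpace 𝓘(ℂ, E) x) : Prop :=
  ContMDiffOn 𝓘(ℂ, E) 𝓘(ℂ, E).tangent ω (fun x => (⟨x, V x⟩ : TangentBundle 𝓘(ℂ, E) X)) U ∧
    ∀ x ∈ U, V x ∈ F x

/-- `F` is a holomorphic subbundle of the tangent bundle: it has local holomorphic frames. -/
def IsSubbundle (F : Dist E X) : Prop :=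
  ∀ x₀ : X, ∃ U ∈ 𝓝 x₀, ∃ (r : ℕ) (s : Fin r → ∀ x : X, TangentSpace 𝓘(ℂ, E) x),
    (∀ j, IsHolSec F U (s j)) ∧ ∀ x ∈ U, LinearIndependent ℂ (fun j => s j x) ∧
      Submodule.span ℂ (range fun j => s j x) = F x

/-- `F` is integrable: its local holomorphic sections are closed under the Lie bracket. -/
def IsIntegrable (F : Dist E X) : Prop :=
  ∀ (U : Set X) (V W : ∀ x : X, TangentSpace 𝓘(ℂ, E) x), IsOpen U →
    IsHolSec F U V → IsHolSec F U W → ∀ x ∈ U, VectorField.mlieBracket 𝓘(ℂ, E) V W x ∈ F x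

end

/-- `Y`, modelled on `A`, is a simply connected complex manifold (Hausdorff, second countable,
finite dimensional). -/
structure IsSCManifold (A Y : Type*) [NormedAddCommGroup A] [NormedSpace ℂ A]
    [TopologicalSpace Y] [ChartedSpace A Y] : Prop where
  fd : FiniteDimensional ℂ A
  mfd : IsManifold 𝓘(ℂ, A) ω Y
  t2 : T2Space Y
  sc : SecondCountableTopology Y
  simply : SimplyConnectedSpace Y

section
variable {E : Type*} [NormedAddCommGroup E] [NormedSpace ℂ E]
  {M : Type u} [TopologicalSpace M] [ChartedSpace E M]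

/-- The kernel of the derivative of `p : M → Y`. -/
noncomputable def kerD (A : Type*) [NormedAddCommGroup A] [NormedSpace ℂ A] {Y : Type*}
    [TopologicalSpace Y] [ChartedSpace A Y] (p : M → Y) : Dist E M := fun x =>
  LinearMap.ker (mfderiv 𝓘(ℂ, E) 𝓘(ℂ, A) p x).toLinearMap

/-- `Φ : M → ∏ Y i` is biholomorphic: it is bijective and a local biholomorphism. -/
def IsBihol (E : Type*) [NormedAddCommGroup E] [NormedSpace ℂ E]
    {M : Type*} [TopologicalSpace M] [ChartedSpace E M] {k : ℕ}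
    (A : Fin k → Type) [∀ i, NormedAddCommGroup (A i)] [∀ i, NormedSpace ℂ (A i)]
    {Y : Fin k → Type*} [∀ i, TopologicalSpace (Y i)] [∀ i, ChartedSpace (A i) (Y i)]
    (Φ : M → ∀ i, Y i) : Prop :=
  Function.Bijective Φ ∧
    IsLocalDiffeomorph 𝓘(ℂ, E) (ModelWithCorners.pi fun i => 𝓘(ℂ, A i)) ω Φ

/-- There are simply connected complex manifolds `Y i` and a biholomorphism `Φ : M → ∏ Y i` whose
derivative maps `G i` onto `pr_i^* T_{Y i}` for all `i`: `G i` is the intersection of the kernels of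
the `d(Φ_j)`, `j ≠ i`. -/
def InducesProduct {k : ℕ} (G : Fin k → Dist E M) : Prop :=
  ∃ (A : Fin k → Type) (_ : ∀ i, NormedAddCommGroup (A i)) (_ : ∀ i, NormedSpace ℂ (A i))
    (Y : Fin k → Type u) (_ : ∀ i, TopologicalSpace (Y i)) (_ : ∀ i, ChartedSpace (A i) (Y i))
    (Φ : M → ∀ i, Y i), (∀ i, IsSCManifold (A i) (Y i)) ∧ IsBihol E A Φ ∧
    ∀ i x, G i x = ⨅ j ≠ i, kerD (A j) (fun y => Φ y j) x

end

end Vale.Agent.P278.StmtF
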