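import Mathlib.Algebra.Order.Ring.Star
import Mathlib.Algebra.Order.Star.Real
import Mathlib.Analysis.Calculus.InverseFunctionTheorem.ContDiff
import Mathlib.Analysis.Calculus.LineDeriv.IntegrationByParts
import Mathlib.Analysis.Complex.MeanValue
import Mathlib.Analysis.Complex.RemovableSingularity
import Mathlib.Analysis.InnerProductSpace.TwoDim
import Mathlib.Analysis.Normed.Module.Connected
import Mathlib.Analysis.ODE.Gronwall
import Mathlib.Analysis.RCLike.Sqrt
import Mathlib.Analysis.Real.Pi.Bounds
import Mathlib.Geometry.Manifold.LocalDiffeomorph
import Mathlib.Geometry.Manifold.PartitionOfUnity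
import Mathlib.Geometry.Manifold.Sheaf.Basic
import Mathlib.Geometry.Manifold.VectorField.LieBracket
import Mathlib.LinearAlgebra.Matrix.Swap
import Mathlib.MeasureTheory.Measure.Lebesgue.VolumeOfBalls
import Mathlib.Order.CompletePartialOrder
import Mathlib.RingTheory.Etale.Weakly
import Mathlib.RingTheory.Flat.TorsionFree
import Mathlib.RingTheory.PicardGroup
import Mathlib.RingTheory.SimpleRing.Principal
import Mathlib.RingTheory.TotallySplit
import Mathlib.Tactic
import Mathlib.Topology.Compactness.CompactlyGeneratedSpace
import Mathlib.Topology.Filter
import Mathlib.Topology.Germ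
import Mathlib.Topology.Homotopy.Lifting
import Mathlib.Topology.UniformSpace.Uniformizable

/-! The part of Mathlib that the development of this folder uses. -/
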